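import Vale.Agent.P280.N.M2
import Vale.Agent.P280.N.M4
import Vale.Agent.P280.N.F02

/-! P280, plan N: the theorem on the boundary weights for an arbitrary torus. -/

open DirectSum Vale.Agent.P280.T Vale.Agent.P280.H127

namespace Vale.Agent.P280.H267

open Vale.Agent.P280.N

variable {r r' : ℕ} {R : Type} [CommRing R] [Algebra ℂ R]
  {𝒜 : ℕ × (Fin r → ℤ) → Submodule ℂ R} [GradedAlgebra 𝒜]

/-- Weights are liftable if the weights above them, for a finer grading, are. -/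
theorem ref_liftable {𝒜' : ℕ × (Fin r' → ℤ) → Submodule ℂ R} [GradedAlgebra 𝒜']
    {π : (Fin r' → ℤ) →+ (Fin r → ℤ)} (hr : ∀ d m', 𝒜' (d, m') ≤ 𝒜 (d, π m'))
    (hX : IsTorusManifold 𝒜) (hX' : IsTorusManifold 𝒜')
    (hiso : ∀ x ν, ¬ IsVertex 𝒜 x → IsFixed 𝒜 x ν → ¬ TangentWeight 𝒜 x ν 0)
    {χ : Fin r → ℤ} (hχ0 : χ ≠ 0) (h : ∀ χ', π χ' = χ → Liftable 𝒜' χ') : Liftable 𝒜 χ := by
  intro x ν hx0 hx _ v hv hw
  obtain ⟨ν', rfl, hx'⟩ := ref_fixed_up hr hX hiso hx0 hx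
  have hx0' : ¬ IsVertex 𝒜' x := fun h1 => hx0 ((ref_vertex hr).1 h1)
  obtain ⟨E, hE⟩ := H587.exists_euler 𝒜'
  have hE' : ∀ d m, ∀ a ∈ 𝒜 (d, m), E a = (d : ℂ) • a := by
    intro d m a ha
    refine ref_ind hr (P := fun a => E a = (d : ℂ) • a) (by rw [map_zero, smul_zero])
      (fun a b ha hb => by rw [map_add, ha, hb, smul_add]) (fun m' _ z hz => hE d m' z hz) ha
  have hzero : ∀ d m, ∀ a ∈ 𝒜 (d, m), (0 : Derivation ℂ R R) a ∈ 𝒜 (d, m - χ) := by
    intro d m a _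
    rw [Derivation.zero_apply]
    exact Submodule.zero_mem _
  have key : ∃ D : Derivation ℂ R R, (∀ d m, ∀ a ∈ 𝒜 (d, m), D a ∈ 𝒜 (d, m - χ)) ∧
      ∀ d, ∀ a ∈ 𝒜 (d, d • π ν' + χ), x (D a) = v a := by
    refine Submodule.span_induction (p := fun v _ => ∃ D : Derivation ℂ R R,
      (∀ d m, ∀ a ∈ 𝒜 (d, m), D a ∈ 𝒜 (d, m - χ)) ∧
        ∀ d, ∀ a ∈ 𝒜 (d, d • π ν' + χ), x (D a) = v a) ?_ ?_ ?_ ?_
      (mem_span_weight hX' hx0' hx' hv)
    · rintro u ⟨hu, χ', hu'⟩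
      by_cases hπ : π χ' = χ
      · by_cases ht : TangentWeight 𝒜' x ν' χ'
        · obtain ⟨D, h1, h2⟩ := h χ' hπ x ν' hx0' hx' ht u hu hu'
          refine ⟨D, fun d m a ha => ?_, fun d a _ => h2 a⟩
          refine ref_ind hr (P := fun a => D a ∈ 𝒜 (d, m - χ))
            (by rw [map_zero]; exact Submodule.zero_mem _)
            (fun a b ha hb => by rw [map_add]; exact Submodule.add_mem _ ha hb) ?_ ha
          intro m' hm' z hz
          have h3 := hr _ _ (h1 d m' z hz)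
          rwa [map_sub, hm', hπ] at h3
        · obtain ⟨c, hc⟩ := H587.euler_of_not hu hu' ht hE
          refine ⟨0, hzero, fun d a ha => ?_⟩
          have h1 : x a = 0 := by
            by_contra hne
            have h2 := hx d _ a ha hne
            exact hχ0 (left_eq_add.1 h2.symm)
          rw [hc a, hE' d _ a ha, map_smul, h1, smul_zero, mul_zero, Derivation.zero_apply,
            map_zero]
      · refine ⟨0, hzero, fun d a ha => ?_⟩
        rw [Derivation.zero_apply, map_zero]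
        by_contra hne
        obtain ⟨m', hm', z, hz, hz'⟩ := ref_ne hr u ha (Ne.symm hne)
        have h1 := hu' d m' z hz hz'
        apply hπ
        rw [h1, map_add, map_nsmul] at hm'
        exact add_left_cancel hm'
    · refine ⟨0, hzero, fun d a _ => ?_⟩
      rw [Derivation.zero_apply, map_zero, LinearMap.zero_apply]
    · rintro u u' _ _ ⟨D, h1, h2⟩ ⟨D', h1', h2'⟩
      refine ⟨D + D', fun d m a ha => ?_, fun d a ha => ?_⟩
      · rw [Derivation.add_apply]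
        exact Submodule.add_mem _ (h1 d m a ha) (h1' d m a ha)
      · rw [Derivation.add_apply, map_add, h2 d a ha, h2' d a ha, LinearMap.add_apply]
    · rintro c u _ ⟨D, h1, h2⟩
      refine ⟨c • D, fun d m a ha => ?_, fun d a ha => ?_⟩
      · rw [Derivation.smul_apply]
        exact Submodule.smul_mem _ _ (h1 d m a ha)
      · rw [Derivation.smul_apply, map_smul, h2 d a ha, LinearMap.smul_apply]
  obtain ⟨D, h1, h2⟩ := key
  refine ⟨D, h1, ?_⟩
  have h3 : x.toLinearMap.comp D.toLinearMap = v := by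
    apply linearMap_ext_graded 𝒜
    rintro ⟨d, m⟩ a ha
    change x (D a) = v a
    by_cases hm : m = d • π ν' + χ
    · subst hm
      exact h2 d a ha
    · have e1 : x (D a) = 0 := by
        by_contra hne
        apply hm
        have h4 := hx d _ _ (h1 d m a ha) hne
        rw [← h4]
        abel
      have e2 : v a = 0 := by
        by_contra hne
        exact hm (hw d m a ha hne)
      rw [e1, e2]
  exact fun a => LinearMap.congr_fun h3 a

/-- **Boundary weights are liftable**, for an arbitrary torus. -/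
theorem liftable_boundary_all (hX : IsTorusManifold 𝒜) (hN : NefOnRationalCurves 𝒜)
    (hiso : ∀ x ν, ¬ IsVertex 𝒜 x → IsFixed 𝒜 x ν → ¬ TangentWeight 𝒜 x ν 0)
    (hind : ∀ x ν ω ω', ¬ IsVertex 𝒜 x → IsFixed 𝒜 x ν → TangentWeight 𝒜 x ν ω →
      TangentWeight 𝒜 x ν ω' → (∃ a b : ℤ, a ≠ 0 ∧ b ≠ 0 ∧ a • ω = b • ω') → ω = ω')
    (hmult : ∀ x ν ω, ¬ IsVertex 𝒜 x → IsFixed 𝒜 x ν → TangentWeight 𝒜 x ν ω →
      ∀ v v' : R →ₗ[ℂ] ℂ, IsTangent x v → HasWeight 𝒜 ν ω v → IsTangent x v' →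
        HasWeight 𝒜 ν ω v' → ∃ c c' : ℂ, (c ≠ 0 ∨ c' ≠ 0) ∧ ∀ h, c * v h + c' * v' h = 0)
    {χ : Fin r → ℤ} (l : (Fin r → ℤ) →+ ℤ) (hl : 0 < l χ)
    (hmax : ∀ y ξ ω, ¬ IsVertex 𝒜 y → IsFixed 𝒜 y ξ → TangentWeight 𝒜 y ξ ω → l ω ≤ l χ) :
    Liftable 𝒜 χ := by
  obtain ⟨r', 𝒜', hg, π, hr, ht⟩ := exists_maxTor hX
  have hdom := hX.domain
  have H : Hyp 𝒜' := ref_hyp hr ht hX hN hiso hind hmult
  have hχ0 : χ ≠ 0 := by
    rintro rfl
    rw [map_zero] at hl
    exact lt_irrefl _ hl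
  refine ref_liftable hr hX H.hX hiso hχ0 fun χ' hχ' => ?_
  intro x ν hx0 hx hxχ
  refine liftable_boundary H (lam := χ') ⟨⟨x, ν, hx0, hx⟩, hxχ⟩ (l.comp π) ?_ ?_ x ν hx0 hx hxχ
  · rw [AddMonoidHom.comp_apply, hχ']
    exact hl
  · rintro ω ⟨y, hy⟩
    rw [AddMonoidHom.comp_apply, AddMonoidHom.comp_apply, hχ']
    exact hmax y.q (π y.ν) (π ω) (fun h2 => y.nv ((ref_vertex hr).2 h2)) (ref_fixed hr y.fix)
      (ref_weight hr hy)

end Vale.Agent.P280.H267
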